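import Vale.Agent.P209.H687.Defs

set_option linter.all false

/-!
# P209, model M: the row (GC), the chart around the gate `x₁ = x₃`
-/

namespace Vale.Agent.P209.H520

open Vale.Agent.P209 H684 H578 H721 H974 H686 H687
open Vale.Agent.P209.Strong hiding chi
open scoped ContDiff

/-! ### The chart -/

theorem omega3 (v v' : Fin 3 → ℂ) :
    omega v v' = om1 (v 0) (v' 0) + om1 (v 1) (v' 1) + om1 (v 2) (v' 2) := by
  rw [show omega v v' = ∑ j, om1 (v j) (v' j) from rfl, Fin.sum_univ_three]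

theorem fderiv_slot {E : Type*} [NormedAddCommGroup E] [NormedSpace ℝ E] {f : E → (Fin 3 → ℂ)}
    {x : E} (hf : DifferentiableAt ℝ f x) (v : E) (j : Fin 3) :
    fderiv ℝ f x v j = fderiv ℝ (fun y => f y j) x v := by
  have h1 := (hasFDerivAt_pi'.1 hf.hasFDerivAt j).fderiv
  rw [h1]
  rfl

theorem G1c_0 (G : ℂ × ℂ → ℂ × ℂ) (w : Fin 3 → ℂ) : G1c G w 0 = w 1 := rfl
theorem G1c_1 (G : ℂ × ℂ → ℂ × ℂ) (w : Fin 3 → ℂ) : G1c G w 1 = (G (w 0, w 2)).2 := rfl
theorem G1c_2 (G : ℂ × ℂ → ℂ × ℂ) (w : Fin 3 → ℂ) : G1c G w 2 = (G (w 0, w 2)).1 := rfl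

/-- the pair of slots used by the gate -/
noncomputable def prL : (Fin 3 → ℂ) →L[ℝ] ℂ × ℂ :=
  (ContinuousLinearMap.proj 0).prod (ContinuousLinearMap.proj 2)

theorem prL_apply (w : Fin 3 → ℂ) : prL w = (w 0, w 2) := rfl

section

variable {r δ ε : ℝ} {s : ℝ → ℝ} {τ : ℂ → ℂ} {φ : ℂ → ℝ} {S G : ℂ × ℂ → ℂ × ℂ}
  (hG : OG r δ ε s τ φ S G)

include hG in
theorem G1c_contDiffAt {w : Fin 3 → ℂ} (hw : ‖w 2‖ < r) : ContDiffAt ℝ ∞ (G1c G) w := by
  have h1 : ContDiffAt ℝ ∞ (fun w : Fin 3 → ℂ => G (prL w)) w :=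
    ContDiffAt.comp (g := G) w (hG.smooth (prL w) hw) prL.contDiff.contDiffAt
  rw [contDiffAt_pi]
  intro j
  fin_cases j
  · exact (contDiff_apply ℝ ℂ (1 : Fin 3)).contDiffAt
  · exact contDiffAt_snd.comp w h1
  · exact contDiffAt_fst.comp w h1

include hG in
theorem G1c_sympl {w : Fin 3 → ℂ} (hw : ‖w 2‖ < r) (v v' : Fin 3 → ℂ) :
    omega (fderiv ℝ (G1c G) w v) (fderiv ℝ (G1c G) w v') = omega v v' := by
  have hd := (G1c_contDiffAt hG hw).differentiableAt (by simp)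
  have hGd : DifferentiableAt ℝ G (prL w) := (hG.smooth (prL w) hw).differentiableAt (by simp)
  have h1 : HasFDerivAt (fun w : Fin 3 → ℂ => G (prL w)) ((fderiv ℝ G (prL w)).comp prL) w :=
    hGd.hasFDerivAt.comp w prL.hasFDerivAt
  have e0 : ∀ v, fderiv ℝ (G1c G) w v 0 = v 1 := by
    intro v
    rw [fderiv_slot hd]
    have : HasFDerivAt (fun y : Fin 3 → ℂ => G1c G y 0)
      (ContinuousLinearMap.proj (R := ℝ) (φ := fun _ : Fin 3 => ℂ) 1) w :=
      (ContinuousLinearMap.proj (R := ℝ) (φ := fun _ : Fin 3 => ℂ) 1).hasFDerivAt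
    rw [this.fderiv]
    rfl
  have e1 : ∀ v, fderiv ℝ (G1c G) w v 1 = (fderiv ℝ G (prL w) (prL v)).2 := by
    intro v
    rw [fderiv_slot hd]
    have : HasFDerivAt (fun y : Fin 3 → ℂ => G1c G y 1)
      ((ContinuousLinearMap.snd ℝ ℂ ℂ).comp ((fderiv ℝ G (prL w)).comp prL)) w :=
      (ContinuousLinearMap.snd ℝ ℂ ℂ).hasFDerivAt.comp w h1
    rw [this.fderiv]
    rfl
  have e2 : ∀ v, fderiv ℝ (G1c G) w v 2 = (fderiv ℝ G (prL w) (prL v)).1 := by
    intro v
    rw [fderiv_slot hd]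
    have : HasFDerivAt (fun y : Fin 3 → ℂ => G1c G y 2)
      ((ContinuousLinearMap.fst ℝ ℂ ℂ).comp ((fderiv ℝ G (prL w)).comp prL)) w :=
      (ContinuousLinearMap.fst ℝ ℂ ℂ).hasFDerivAt.comp w h1
    rw [this.fderiv]
    rfl
  have h2 := hG.sympl (prL w) hw (prL v) (prL v')
  unfold om2 at h2
  rw [omega3, omega3, e0, e0, e1, e1, e2, e2]
  have h3 : om1 (prL v).1 (prL v').1 = om1 (v 0) (v' 0) := rfl
  have h4 : om1 (prL v).2 (prL v').2 = om1 (v 2) (v' 2) := rfl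
  linarith

include hG in
theorem G1c_inj {w w' : Fin 3 → ℂ} (hw : ‖w 2‖ < r) (hw' : ‖w' 2‖ < r) (h : G1c G w = G1c G w') :
    ∃ l : ℤ, w' = sft l w := by
  have h0 : w 1 = w' 1 := congrFun h 0
  have h1 : (G (w 0, w 2)).2 = (G (w' 0, w' 2)).2 := congrFun h 1
  have h2 : (G (w 0, w 2)).1 = (G (w' 0, w' 2)).1 := congrFun h 2
  obtain ⟨l, hl⟩ := hG.inj (w 0, w 2) (w' 0, w' 2) hw hw' (Prod.ext h2 h1)
  have h3 : w' 0 = w 0 + (l : ℂ) * Complex.I := congrArg Prod.fst hl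
  have h4 : w' 2 = w 2 := congrArg Prod.snd hl
  refine ⟨l, funext fun j => ?_⟩
  refine Fin.cases ?_ (fun a => ?_) j
  · rw [sft_zero_slot]
    exact h3
  · rw [sft_succ]
    fin_cases a
    · exact h0.symm
    · exact h4

include hG in
/-- the explicit form on the side `δ ≤ p` (the `x₃`-side), where the clock is off -/
theorem G1c_right {w : Fin 3 → ℂ} (hw : ‖w 2‖ < r) (h : δ ≤ (w 0).re) (hs : s (w 0).re = 0) :
    G1c G w = ![w 1, ee (-(w 0).im) * w 2,
      phiA (((ar (w 2) + (w 0).re : ℝ) : ℂ) + (((w 0).im : ℝ) : ℂ) * Complex.I)] := by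
  have h0 : S (w 0, w 2) = (w 0, w 2) := hG.susp.off (w 0, w 2) hs
  have h1 := hG.plus (w 0, w 2) hw h
  rw [h0] at h1
  unfold G1c
  rw [h1]

include hG in
/-- the explicit form on the side `p ≤ -δ` (the `x₁`-side), where the clock is off -/
theorem G1c_left {w : Fin 3 → ℂ} (hw : ‖w 2‖ < r) (h : (w 0).re ≤ -δ) (hs : s (w 0).re = 0) :
    G1c G w = ![w 1,
      phiA (((ar (w 2) - (w 0).re : ℝ) : ℂ) + ((-(w 0).im : ℝ) : ℂ) * Complex.I),
      ee (w 0).im * w 2] := by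
  have h0 : S (w 0, w 2) = (w 0, w 2) := hG.susp.off (w 0, w 2) hs
  have h1 := hG.minus (w 0, w 2) hw h
  rw [h0] at h1
  unfold G1c
  rw [h1]

end

/-! ### Elementary estimates -/

theorem uu0 (w : Fin 3 → ℂ) : uu w 0 = ar (w 1) := rfl
theorem uu1 (w : Fin 3 → ℂ) : uu w 1 = ar (w 2) := rfl

theorem chi_le' {m t : ℝ} (hm : 0 < m) : H684.chi (m / 100) t ≤ max t 0 + m / 100 :=
  H684.chi_le (by positivity)

/-- the length of the zone: `|p| + η / 2 < C / 2` where `l > l₀ + m / 2` -/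
theorem zone {R c m η : ℝ} (hH : Hyp R c m η) {w : Fin 3 → ℂ} (hV : uu w ∈ Vm R c m)
    (hl : (R - 2 * c) / 3 + m / 2 < lw R w) : |(w 0).re| < Cm R c m (uu w) / 2 - η / 2 := by
  obtain ⟨hm, hmc, hcR, hη, hηm⟩ := hH
  obtain ⟨h0, h1, h2, h3⟩ := hV
  have hchi := chi_le' (t := uu w 0 + uu w 1 - c) hm
  rw [uu0, uu1] at h3 hchi
  unfold lw at hl
  unfold Cm Pm Lam
  rw [uu0, uu1]
  rcases le_total (ar (w 1) + ar (w 2) - c) 0 with h | h
  · rw [max_eq_right h] at hchi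
    linarith
  · rw [max_eq_left h] at hchi
    linarith

/-! ### The left side -/

/-- the change of time is affine in the zone -/
theorem FL_eq {R c m η : ℝ} (hH : Hyp R c m η) (D : Dat R c m η) {q : ℝ × (Fin 2 → ℝ)}
    (hq : q.1 < Cm R c m q.2 / 2 - η / 2) : FL D.t R c m q = q.1 - Pm R c q.2 / 2 := by
  have h1 : D.t (q.1 - Cm R c m q.2 / 2) = -(1 / 2) := by
    have h2 := D.ht.one (-(q.1 - Cm R c m q.2 / 2)) (by linarith)
    rw [D.ht.odd] at h2
    linarith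
  unfold FL
  rw [h1]
  unfold Cm
  ring

/-- the affine function -/
noncomputable def affL (R c : ℝ) (q : ℝ × (Fin 2 → ℝ)) : ℝ := q.1 - Pm R c q.2 / 2

/-- its derivative -/
noncomputable def affLD : ℝ × (Fin 2 → ℝ) →L[ℝ] ℝ :=
  ContinuousLinearMap.fst ℝ ℝ (Fin 2 → ℝ) +
    ((2 : ℝ) • (ContinuousLinearMap.proj (R := ℝ) (φ := fun _ : Fin 2 => ℝ) 0).comp
      (ContinuousLinearMap.snd ℝ ℝ (Fin 2 → ℝ)) +
    (3 : ℝ) • (ContinuousLinearMap.proj (R := ℝ) (φ := fun _ : Fin 2 => ℝ) 1).comp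
      (ContinuousLinearMap.snd ℝ ℝ (Fin 2 → ℝ)))

theorem affLD_apply (q : ℝ × (Fin 2 → ℝ)) : affLD q = q.1 + (2 * q.2 0 + 3 * q.2 1) := rfl

theorem affL_hasFDerivAt (R c : ℝ) (q : ℝ × (Fin 2 → ℝ)) : HasFDerivAt (affL R c) affLD q := by
  have h1 : affL R c = fun q => affLD q + (-((3 * R + c) / 2)) := by
    funext q
    rw [affLD_apply]
    unfold affL Pm
    ring
  rw [h1]
  exact affLD.hasFDerivAt.add_const _

theorem Cm_continuous (R c m : ℝ) : Continuous (Cm R c m) := by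
  have h1 : Continuous (H684.chi (m / 100)) := (H684.chi_contDiff _).continuous
  have h2 : Continuous (fun u : Fin 2 → ℝ => u 0) := continuous_apply 0
  have h3 : Continuous (fun u : Fin 2 → ℝ => u 1) := continuous_apply 1
  unfold Cm Pm Lam
  exact ((continuous_const.sub (continuous_const.mul h2)).sub (continuous_const.mul h3)).sub
    ((((continuous_const.mul h2).add h3).add
      (continuous_const.mul (h1.comp ((h2.add h3).sub continuous_const)))).add continuous_const)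

theorem FL_eventually {R c m η : ℝ} (hH : Hyp R c m η) (D : Dat R c m η) {q : ℝ × (Fin 2 → ℝ)}
    (hq : q.1 < Cm R c m q.2 / 2 - η / 2) : FL D.t R c m =ᶠ[nhds q] affL R c := by
  have h1 : ∀ᶠ q' : ℝ × (Fin 2 → ℝ) in nhds q, q'.1 < Cm R c m q'.2 / 2 - η / 2 := by
    refine (isOpen_lt continuous_fst ?_).mem_nhds hq
    exact (((Cm_continuous R c m).comp continuous_snd).div_const 2).sub continuous_const
  filter_upwards [h1] with q' hq'
  exact FL_eq hH D hq'

/-- the change of frame on the left half, in the zone -/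
theorem clift_FL {R c m η : ℝ} (hH : Hyp R c m η) (D : Dat R c m η) {w : Fin 3 → ℂ}
    (hq : (w 0).re < Cm R c m (uu w) / 2 - η / 2) :
    clift (FL D.t R c m) w = ![(((w 0).re - Pm R c (uu w) / 2 : ℝ) : ℂ) +
      (((w 0).im : ℝ) : ℂ) * Complex.I, ee (-((w 0).im * 2)) * w 1,
      ee (-((w 0).im * 3)) * w 2] := by
  have h1 : FL D.t R c m =ᶠ[nhds (qq w)] affL R c := FL_eventually hH D hq
  have h2 : fderiv ℝ (FL D.t R c m) (qq w) = affLD := by
    rw [h1.fderiv_eq, (affL_hasFDerivAt R c (qq w)).fderiv]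
  have h3 : Fp (FL D.t R c m) (qq w) = 1 := by
    unfold Fp
    rw [h2, affLD_apply]
    simp
  have h4 : Fu (FL D.t R c m) 0 (qq w) = 2 := by
    unfold Fu
    rw [h2, affLD_apply]
    simp
  have h5 : Fu (FL D.t R c m) 1 (qq w) = 3 := by
    unfold Fu
    rw [h2, affLD_apply]
    simp
  have h6 : ctau (FL D.t R c m) w = (w 0).im := by
    unfold ctau
    rw [h3, div_one]
  have h7 : FL D.t R c m (qq w) = (w 0).re - Pm R c (uu w) / 2 := h1.eq_of_nhds
  funext j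
  fin_cases j
  · show clift (FL D.t R c m) w 0 = _
    rw [clift_zero, h6, h7]
    rfl
  · show clift (FL D.t R c m) w (Fin.succ 0) = _
    rw [clift_succ, h6, h4]
    rfl
  · show clift (FL D.t R c m) w (Fin.succ 1) = _
    rw [clift_succ, h6, h5]
    rfl

/-- the left chart far from all gates -/
theorem GamL_far {R c m η : ℝ} (hH : Hyp R c m η) (D : Dat R c m η) {w : Fin 3 → ℂ}
    (hV : uu w ∈ Vm R c m) (hl : (R - 2 * c) / 3 + m / 2 < lw R w) (hp : m / 40 < (w 0).re) :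
    GamL R c D.g2 D.g1 (![(((w 0).re - Pm R c (uu w) / 2 : ℝ) : ℂ) +
      (((w 0).im : ℝ) : ℂ) * Complex.I, ee (-((w 0).im * 2)) * w 1,
      ee (-((w 0).im * 3)) * w 2]) = ![w 1, ee (-(w 0).im) * w 2,
      phiA (((ar (w 2) + (w 0).re : ℝ) : ℂ) + (((w 0).im : ℝ) : ℂ) * Complex.I)] := by
  obtain ⟨hm, hmc, hcR, hη, hηm⟩ := id hH
  obtain ⟨h0, h1, h2, h3⟩ := id hV
  have hpi := Real.pi_pos
  set p : ℝ := (w 0).re with hpdef
  set θ : ℝ := (w 0).im with hθ
  set v : Fin 3 → ℂ := ![((p - Pm R c (uu w) / 2 : ℝ) : ℂ) + (θ : ℂ) * Complex.I,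
    ee (-(θ * 2)) * w 1, ee (-(θ * 3)) * w 2] with hv
  have hv0re : (v 0).re = p - Pm R c (uu w) / 2 := by
    rw [hv]; simp
  have hv0im : (v 0).im = θ := by
    rw [hv]; simp
  have hv1 : v 1 = ee (-(θ * 2)) * w 1 := rfl
  have hv2 : v 2 = ee (-(θ * 3)) * w 2 := rfl
  have har1 : ar (v 1) = ar (w 1) := by rw [hv1, ar_mul_of_norm_one (ee_norm _)]
  have har2 : ar (v 2) = ar (w 2) := by rw [hv2, ar_mul_of_norm_one (ee_norm _)]
  have hn1 := ar_nonneg (w 1)
  have hn2 := ar_nonneg (w 2)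
  rw [uu0, uu1] at h3
  have hkap : kap R c v = R + c - 3 * (ar (w 1) + ar (w 2)) - p := by
    unfold kap
    rw [har1, hv0re]
    unfold Pm
    rw [uu0, uu1]
    ring
  have hl' : (R - 2 * c) / 3 + m / 2 < R - 2 * (ar (w 1) + ar (w 2)) - p := by
    unfold lw at hl
    rwa [← hpdef, abs_of_pos (by linarith)] at hl
  set κ : ℝ := R + c - 3 * (ar (w 1) + ar (w 2)) - p with hκ
  have hκ1 : m < κ := by rw [hκ]; linarith
  have hr : ∀ z : ℂ, ar z < (R + c) / 3 → ‖z‖ < D.r := D.hr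
  have htoK : toK R c v = ![((κ : ℝ) : ℂ) + ((-θ : ℝ) : ℂ) * Complex.I,
      ee (-(θ * 3)) * w 1, ee (-(θ * 3)) * w 2] := by
    unfold toK
    rw [hkap, hv0im, hv1, hv2, ← mul_assoc, ← ee_add]
    rw [show -θ + -(θ * 2) = -(θ * 3) by ring]
  -- the gate of `z_2`
  have hg2 : D.g2 (((κ : ℝ) : ℂ) + ((-θ : ℝ) : ℂ) * Complex.I, ee (-(θ * 3)) * w 2) =
      (phiA (((ar (w 2) + κ : ℝ) : ℂ) + ((-θ : ℝ) : ℂ) * Complex.I), ee (-(θ * 2)) * w 2) := by
    have hre : (((κ : ℝ) : ℂ) + ((-θ : ℝ) : ℂ) * Complex.I).re = κ := by simp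
    have him : (((κ : ℝ) : ℂ) + ((-θ : ℝ) : ℂ) * Complex.I).im = -θ := by simp
    have hn : ‖ee (-(θ * 3)) * w 2‖ < D.r := by
      apply hr
      rw [ar_mul_of_norm_one (ee_norm _)]
      linarith
    have hS := D.og2.susp.off
      (((κ : ℝ) : ℂ) + ((-θ : ℝ) : ℂ) * Complex.I, ee (-(θ * 3)) * w 2) (by
        rw [hre]; exact D.hs2.zero κ (by linarith))
    have h := D.og2.plus
      (((κ : ℝ) : ℂ) + ((-θ : ℝ) : ℂ) * Complex.I, ee (-(θ * 3)) * w 2) hn (by
        rw [hre]; linarith)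
    rw [hS] at h
    simp only [hre, him, ar_mul_of_norm_one (ee_norm _)] at h
    rw [h, ← mul_assoc, ← ee_add]
    rw [show - -θ + -(θ * 3) = -(θ * 2) by ring]
  have hVphi : phiA (((ar (w 2) + κ : ℝ) : ℂ) + ((-θ : ℝ) : ℂ) * Complex.I) =
      ((Real.sqrt ((ar (w 2) + κ) / Real.pi) : ℝ) : ℂ) * ee (-θ) := by
    rw [phiA_eq]; simp
  have hsq : ∀ x : ℝ, 0 < x → 0 < Real.sqrt (x / Real.pi) := fun x hx =>
    Real.sqrt_pos.2 (div_pos hx hpi)
  have huph : ∀ (x t : ℝ), 0 < x → uph (((Real.sqrt (x / Real.pi) : ℝ) : ℂ) * ee t) = ee t := by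
    intro x t hx
    have h1 := hsq x hx
    unfold uph
    rw [norm_mul, ee_norm, mul_one, Complex.norm_real, Real.norm_of_nonneg h1.le]
    have h2 : ((Real.sqrt (x / Real.pi) : ℝ) : ℂ) ≠ 0 := by
      exact_mod_cast h1.ne'
    push_cast
    field_simp
  have hconj : ∀ t : ℝ, (starRingEnd ℂ) (ee t) = ee (-t) := by
    intro t
    unfold ee
    rw [← Complex.exp_conj, map_mul, Complex.conj_I, Complex.conj_ofReal]
    congr 1
    push_cast
    ring
  have haV : ar (phiA (((ar (w 2) + κ : ℝ) : ℂ) + ((-θ : ℝ) : ℂ) * Complex.I)) =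
      ar (w 2) + κ := by
    rw [ar_phiA (by simp; linarith)]
    simp
  have huV : uph (phiA (((ar (w 2) + κ : ℝ) : ℂ) + ((-θ : ℝ) : ℂ) * Complex.I)) = ee (-θ) := by
    rw [hVphi, huph _ _ (by linarith)]
  set l : ℝ := R - 2 * (ar (w 1) + ar (w 2)) - p with hldef
  have hlm : (R - 2 * c) / 3 + m / 2 < l := hl'
  have hlm' : m / 2 < l := by linarith
  -- the gate of `z_1`
  have hg1 : D.g1 ((l : ℂ), ee (-(θ * 2)) * w 1) =
      (((Real.sqrt ((ar (w 1) + l) / Real.pi) : ℝ) : ℂ), ee (-(θ * 2)) * w 1) := by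
    have hre : ((l : ℝ) : ℂ).re = l := by simp
    have him : ((l : ℝ) : ℂ).im = 0 := by simp
    have hn : ‖ee (-(θ * 2)) * w 1‖ < D.r := by
      apply hr
      rw [ar_mul_of_norm_one (ee_norm _)]
      linarith
    have hS := D.og1.susp.off ((l : ℂ), ee (-(θ * 2)) * w 1) (by
        rw [hre]; exact D.hs1.zero l hlm.le)
    have h := D.og1.plus ((l : ℂ), ee (-(θ * 2)) * w 1) hn (by
        rw [hre]; linarith)
    rw [hS] at h
    simp only [hre, him, ar_mul_of_norm_one (ee_norm _), neg_zero, ee_zero, one_mul] at h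
    rw [h, phiA_eq]
    simp [ee_zero]
  have hEL : EL c D.g2 D.g1 (toK R c v) = ![ee (-θ) * w 1, ee (-(θ * 2)) * w 2,
      ((Real.sqrt ((ar (w 1) + l) / Real.pi) : ℝ) : ℂ) * ee (-θ)] := by
    rw [htoK]
    unfold EL
    simp only [Matrix.cons_val_zero, Matrix.cons_val_one, Matrix.cons_val_two, Matrix.head_cons,
      Matrix.tail_cons, Matrix.cons_val]
    rw [hg2]
    simp only []
    rw [haV, huV, hconj, neg_neg, ar_mul_of_norm_one (ee_norm _), ← mul_assoc, ← ee_add,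
      show θ + -(θ * 3) = -(θ * 2) by ring,
      show ar (w 2) + κ - c + ar (w 1) = l by rw [hκ, hldef]; ring, hg1]
    simp only []
    rw [← mul_assoc, ← ee_add, show θ + -(θ * 2) = -θ by ring, mul_comm (ee (-θ))
      ((Real.sqrt ((ar (w 1) + l) / Real.pi) : ℝ) : ℂ)]
  unfold GamL
  rw [hEL]
  unfold gau
  simp only [Matrix.cons_val_zero, Matrix.cons_val_one, Matrix.cons_val_two, Matrix.head_cons,
      Matrix.tail_cons, Matrix.cons_val]
  rw [huph _ _ (by linarith), hconj, neg_neg, ar_mul_of_norm_one (ee_norm _),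
    ar_mul_of_norm_one (ee_norm _), ar_mul_of_norm_one' (ee_norm _)]
  have harl : ar ((Real.sqrt ((ar (w 1) + l) / Real.pi) : ℝ) : ℂ) = ar (w 1) + l := by
    unfold ar
    rw [Complex.norm_real, Real.norm_eq_abs, sq_abs, Real.sq_sqrt (by
      have : 0 ≤ ar (w 1) + l := by linarith
      unfold ar at this
      positivity)]
    field_simp
  rw [harl, show R - ar (w 1) - ar (w 2) - (ar (w 1) + l) = ar (w 2) + p by rw [hldef]; ring]
  have e1 : ee (-θ) * w 1 * ee θ = w 1 := by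
    rw [mul_right_comm, ee_neg_mul, one_mul]
  have e2 : ee (-(θ * 2)) * w 2 * ee θ = ee (-θ) * w 2 := by
    rw [mul_right_comm, ← ee_add, show -(θ * 2) + θ = -θ by ring]
  have e3 : phiA (((ar (w 2) + p : ℝ) : ℂ) + (θ : ℂ) * Complex.I) =
      ((Real.sqrt ((ar (w 2) + p) / Real.pi) : ℝ) : ℂ) * ee θ := by
    rw [phiA_eq]; simp
  rw [e1, e2, e3]

/-! ### The right side -/

/-- the change of time is affine in the zone -/
theorem FR_eq {R c m η : ℝ} (hH : Hyp R c m η) (D : Dat R c m η) {q : ℝ × (Fin 2 → ℝ)}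
    (hq : -(Cm R c m q.2 / 2) + η / 2 < q.1) : FR D.t R c m q = q.1 + Pm R c q.2 / 2 := by
  have h1 : D.t (q.1 + Cm R c m q.2 / 2) = 1 / 2 := D.ht.one _ (by linarith)
  unfold FR
  rw [h1]
  unfold Cm
  ring

/-- the affine function -/
noncomputable def affR (R c : ℝ) (q : ℝ × (Fin 2 → ℝ)) : ℝ := q.1 + Pm R c q.2 / 2

/-- its derivative -/
noncomputable def affRD : ℝ × (Fin 2 → ℝ) →L[ℝ] ℝ :=
  ContinuousLinearMap.fst ℝ ℝ (Fin 2 → ℝ) +
    ((-2 : ℝ) • (ContinuousLinearMap.proj (R := ℝ) (φ := fun _ : Fin 2 => ℝ) 0).comp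
      (ContinuousLinearMap.snd ℝ ℝ (Fin 2 → ℝ)) +
    (-3 : ℝ) • (ContinuousLinearMap.proj (R := ℝ) (φ := fun _ : Fin 2 => ℝ) 1).comp
      (ContinuousLinearMap.snd ℝ ℝ (Fin 2 → ℝ)))

theorem affRD_apply (q : ℝ × (Fin 2 → ℝ)) : affRD q = q.1 + (-2 * q.2 0 + -3 * q.2 1) := rfl

theorem affR_hasFDerivAt (R c : ℝ) (q : ℝ × (Fin 2 → ℝ)) : HasFDerivAt (affR R c) affRD q := by
  have h1 : affR R c = fun q => affRD q + ((3 * R + c) / 2) := by
    funext q
    rw [affRD_apply]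
    unfold affR Pm
    ring
  rw [h1]
  exact affRD.hasFDerivAt.add_const _

theorem FR_eventually {R c m η : ℝ} (hH : Hyp R c m η) (D : Dat R c m η) {q : ℝ × (Fin 2 → ℝ)}
    (hq : -(Cm R c m q.2 / 2) + η / 2 < q.1) : FR D.t R c m =ᶠ[nhds q] affR R c := by
  have h1 : ∀ᶠ q' : ℝ × (Fin 2 → ℝ) in nhds q, -(Cm R c m q'.2 / 2) + η / 2 < q'.1 := by
    refine (isOpen_lt ?_ continuous_fst).mem_nhds hq
    exact (((Cm_continuous R c m).comp continuous_snd).div_const 2).neg.add continuous_const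
  filter_upwards [h1] with q' hq'
  exact FR_eq hH D hq'

/-- the change of frame on the right half, in the zone, after the mirror -/
theorem clift_FR {R c m η : ℝ} (hH : Hyp R c m η) (D : Dat R c m η) {w : Fin 3 → ℂ}
    (hq : -(Cm R c m (uu w) / 2) + η / 2 < (w 0).re) :
    mir (clift (FR D.t R c m) w) = ![((-(w 0).re - Pm R c (uu w) / 2 : ℝ) : ℂ) +
      ((-(w 0).im : ℝ) : ℂ) * Complex.I, ee (-(-(w 0).im * 2)) * w 1,
      ee (-(-(w 0).im * 3)) * w 2] := by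
  have h1 : FR D.t R c m =ᶠ[nhds (qq w)] affR R c := FR_eventually hH D hq
  have h2 : fderiv ℝ (FR D.t R c m) (qq w) = affRD := by
    rw [h1.fderiv_eq, (affR_hasFDerivAt R c (qq w)).fderiv]
  have h3 : Fp (FR D.t R c m) (qq w) = 1 := by
    unfold Fp
    rw [h2, affRD_apply]
    simp
  have h4 : Fu (FR D.t R c m) 0 (qq w) = -2 := by
    unfold Fu
    rw [h2, affRD_apply]
    simp
  have h5 : Fu (FR D.t R c m) 1 (qq w) = -3 := by
    unfold Fu
    rw [h2, affRD_apply]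
    simp
  have h6 : ctau (FR D.t R c m) w = (w 0).im := by
    unfold ctau
    rw [h3, div_one]
  have h7 : FR D.t R c m (qq w) = (w 0).re + Pm R c (uu w) / 2 := h1.eq_of_nhds
  funext j
  fin_cases j
  · show -(clift (FR D.t R c m) w 0) = _
    rw [clift_zero, h6, h7]
    show _ = ((-(w 0).re - Pm R c (uu w) / 2 : ℝ) : ℂ) + ((-(w 0).im : ℝ) : ℂ) * Complex.I
    push_cast
    ring
  · show clift (FR D.t R c m) w (Fin.succ 0) = _
    rw [clift_succ, h6, h4]
    show _ = ee (-(-(w 0).im * 2)) * w 1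
    rw [show -((w 0).im * -2) = -(-(w 0).im * 2) by ring]
    rfl
  · show clift (FR D.t R c m) w (Fin.succ 1) = _
    rw [clift_succ, h6, h5]
    show _ = ee (-(-(w 0).im * 3)) * w 2
    rw [show -((w 0).im * -3) = -(-(w 0).im * 3) by ring]
    rfl

/-! ### The row -/

theorem rowGC : RowGC := by
  intro R c m η D hH
  obtain ⟨hm, hmc, hcR, hη, hηm⟩ := id hH
  obtain ⟨hs3a, hs3b, hs3c, hs3d, hs3e⟩ := D.hs3
  have hrad : ∀ w : Fin 3 → ℂ, uu w ∈ Vm R c m → ‖w 2‖ < D.r := by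
    intro w hV
    obtain ⟨h0, h1, h2, h3⟩ := hV
    rw [uu0, uu1] at h3
    have hn1 := ar_nonneg (w 1)
    exact D.hr _ (by linarith)
  -- far from the gate
  have hfar : ∀ w : Fin 3 → ℂ, uu w ∈ Vm R c m → m / 40 ≤ |(w 0).re| →
      ar (G1c D.g3 w 1) + ar (G1c D.g3 w 2) = 2 * ar (w 2) + |(w 0).re| := by
    intro w hV hp
    have hw := hrad w hV
    have hn2 := ar_nonneg (w 2)
    rcases le_abs.1 hp with h | h
    · have hpos : 0 < (w 0).re := by linarith
      have e := G1c_right D.og3 hw (by linarith) (hs3e _ hp)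
      have e1 : G1c D.g3 w 1 = ee (-(w 0).im) * w 2 := congrFun e 1
      have e2 : G1c D.g3 w 2 =
        phiA (((ar (w 2) + (w 0).re : ℝ) : ℂ) + (((w 0).im : ℝ) : ℂ) * Complex.I) := congrFun e 2
      rw [e1, e2, ar_mul_of_norm_one (ee_norm _), ar_phiA (by simp; linarith), abs_of_pos hpos]
      simp
      ring
    · have hneg : (w 0).re < 0 := by linarith
      have e := G1c_left D.og3 hw (by linarith) (hs3e _ hp)
      have e1 : G1c D.g3 w 1 =
        phiA (((ar (w 2) - (w 0).re : ℝ) : ℂ) + ((-(w 0).im : ℝ) : ℂ) * Complex.I) := congrFun e 1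
      have e2 : G1c D.g3 w 2 = ee (w 0).im * w 2 := congrFun e 2
      rw [e1, e2, ar_mul_of_norm_one (ee_norm _), ar_phiA (by simp; linarith), abs_of_neg hneg]
      simp
      ring
  have hlimfar : ∀ w : Fin 3 → ℂ, uu w ∈ Vm R c m → m / 40 ≤ |(w 0).re| →
      lim R (G1c D.g3 w) = lw R w := by
    intro w hV hp
    have h := hfar w hV hp
    unfold lim lw
    rw [G1c_0]
    linarith
  have hsum : ∀ w : Fin 3 → ℂ, uu w ∈ Vm R c m →
      ar (G1c D.g3 w 1) + ar (G1c D.g3 w 2) ≤ 2 * ar (w 2) + |(w 0).re| + m / 100 := by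
    intro w hV
    have h := D.og3.sum (w 0, w 2) (hrad w hV)
    rw [G1c_1, G1c_2]
    linarith
  have hlimnear : ∀ w : Fin 3 → ℂ, uu w ∈ Vm R c m → |(w 0).re| < m / 40 →
      (R - 2 * c) / 3 + 3 * m / 4 < lim R (G1c D.g3 w) := by
    intro w hV hp
    have h := hsum w hV
    obtain ⟨h0, h1, h2, h3⟩ := hV
    rw [uu0, uu1] at h3
    unfold lim
    rw [G1c_0]
    linarith
  have hleft : ∀ w : Fin 3 → ℂ, uu w ∈ Vm R c m → (R - 2 * c) / 3 + m / 2 < lw R w →
      m / 40 < (w 0).re → G1c D.g3 w = D.cL (clift (FL D.t R c m) w) := by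
    intro w hV hl hp
    have hz := zone hH hV hl
    have hp' : m / 40 ≤ |(w 0).re| := hp.le.trans (le_abs_self _)
    rw [clift_FL hH D (lt_of_le_of_lt (le_abs_self _) hz)]
    show _ = GamL R c D.g2 D.g1 _
    rw [GamL_far hH D hV hl hp]
    exact G1c_right D.og3 (hrad w hV) (by linarith) (hs3e _ hp')
  refine ⟨fun w hV hl => ?_, fun w w' hV hV' h => G1c_inj D.og3 (hrad w hV) (hrad w' hV') h⟩
  have hw := hrad w hV
  refine ⟨G1c_contDiffAt D.og3 hw, G1c_sympl D.og3 hw, ?_, ?_, ?_, ?_, hleft w hV hl, ?_⟩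
  · have h := hsum w hV
    obtain ⟨h0, h1, h2, h3⟩ := hV
    rw [uu0] at h2
    unfold lw at hl
    have hn1 := ar_nonneg (w 1)
    refine ⟨?_, ?_⟩
    · rw [G1c_0]; linarith
    · rw [G1c_0]; linarith
  · rcases lt_or_ge |(w 0).re| (m / 40) with h | h
    · have := hlimnear w hV h
      linarith
    · rw [hlimfar w hV h]; exact hl
  · intro hl2
    rcases lt_or_ge |(w 0).re| (m / 40) with h | h
    · exact hlimnear w hV h
    · rw [hlimfar w hV h]; exact hl2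
  · intro hp
    exact hlimfar w hV hp.le
  · intro hp
    have hz := zone hH hV hl
    have hneg : (w 0).re < 0 := by linarith
    have hp' : m / 40 ≤ |(w 0).re| := by rw [abs_of_neg hneg]; linarith
    -- the mirror image
    have hmu : uu (mir w) = uu w := by
      funext a
      fin_cases a <;> rfl
    have hm0 : (mir w 0).re = -(w 0).re := by show (-(w 0)).re = _; simp
    have hm0i : (mir w 0).im = -(w 0).im := by show (-(w 0)).im = _; simp
    have hlm : lw R (mir w) = lw R w := by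
      unfold lw
      rw [hm0, abs_neg]
      rfl
    have h1 := GamL_far hH D (w := mir w) (by rw [hmu]; exact hV) (by rw [hlm]; exact hl)
      (by rw [hm0]; linarith)
    rw [hmu, hm0, hm0i] at h1
    have h2 : D.cR (clift (FR D.t R c m) w) = swp (![w 1, ee (-(-(w 0).im)) * w 2,
      phiA (((ar (w 2) + -(w 0).re : ℝ) : ℂ) + ((-(w 0).im : ℝ) : ℂ) * Complex.I)]) := by
      show swp (GamL R c D.g2 D.g1 (mir (clift (FR D.t R c m) w))) = _
      rw [clift_FR hH D (by rw [abs_of_neg hneg] at hz; linarith)]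
      exact congrArg swp h1
    rw [h2, G1c_left D.og3 hw (by linarith) (hs3e _ hp')]
    unfold swp
    simp only [Matrix.cons_val_zero, Matrix.cons_val_one, Matrix.cons_val_two, Matrix.head_cons,
      Matrix.tail_cons, Matrix.cons_val, neg_neg, sub_eq_add_neg]

end Vale.Agent.P209.H520
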